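import Vale.Agent.P354HU.Uniq

/-!
P354 (helper51): uniqueness on strips and global existence from local existence and the a priori
estimate.
-/

open scoped ContDiff
open MeasureTheory Set Filter Topology

namespace Vale.Agent.P354HG

open Vale.Agent.P354H

section
variable {V : Type} [NormedAddCommGroup V] [NormedSpace ℝ V]

theorem holds_congr (S : Sys V) {W W' : ℝ × X3 → V} {p : ℝ × X3} (h : W =ᶠ[𝓝 p] W')
    (H : S.Holds W p) : S.Holds W' p := by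
  unfold Sys.Holds dt dx at *
  rw [← h.fderiv_eq, ← h.eq_of_nhds]
  exact H

theorem bd_mono {S : Sys V} {I J : Set ℝ} {C : ℕ → ℝ} (h : S.Bd J C) (hI : I ⊆ J) : S.Bd I C :=
  fun k t ht => h k t (hI ht)

theorem good_sl {W : ℝ × X3 → V} (h : ContDiff ℝ ∞ W) (h' : HasCompactSupport W) (t : ℝ) :
    Good (sl W t) :=
  ⟨h.comp (contDiff_const.prodMk contDiff_id), P354HU.cs_sl h' t⟩

theorem norm_A_le {S : Sys V} {I : Set ℝ} {C : ℕ → ℝ} (h : S.Bd I C) {p : ℝ × X3} (hp : p.1 ∈ I)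
    (j : Fin 3) (w : V) : ‖S.A j p w‖ ≤ C 0 + C 0 * ‖w‖ := by
  have h1 : ‖S.a j p‖ ≤ C 0 := ((h 0 p.1 hp).1 j).1 [] le_rfl p.2
  have h2 : ‖S.l j p‖ ≤ C 0 := ((h 0 p.1 hp).1 j).2 [] le_rfl p.2
  exact (norm_add_le _ _).trans (add_le_add h1
    (((S.l j p).le_opNorm w).trans (mul_le_mul_of_nonneg_right h2 (norm_nonneg _))))

/-- The equation of the difference of two solutions. -/
theorem diff_eq {S : Sys V} {W₁ W₂ : ℝ × X3 → V} {p : ℝ × X3} (d₁ : DifferentiableAt ℝ W₁ p)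
    (d₂ : DifferentiableAt ℝ W₂ p) (h₁ : S.Holds W₁ p) (h₂ : S.Holds W₂ p) :
    dt (fun p => W₁ p - W₂ p) p - ∑ j, S.A j p (W₁ p) (dx j (fun p => W₁ p - W₂ p) p) =
      ∑ j, S.l j p (W₁ p - W₂ p) (dx j W₂ p) + S.b p (W₁ p - W₂ p) +
        S.q p (W₁ p) (W₁ p - W₂ p) + S.q p (W₁ p - W₂ p) (W₂ p) := by
  unfold Sys.Holds at h₁ h₂
  have e1 : dt (fun p => W₁ p - W₂ p) p = dt W₁ p - dt W₂ p := by
    unfold dt; rw [fderiv_fun_sub d₁ d₂]; rfl
  have e2 : ∀ j, dx j (fun p => W₁ p - W₂ p) p = dx j W₁ p - dx j W₂ p := fun j => by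
    unfold dx; rw [fderiv_fun_sub d₁ d₂]; rfl
  simp only [e1, e2, h₁, h₂, Sys.A, Sys.F, map_sub, add_apply,
    sub_apply, Finset.sum_add_distrib, Finset.sum_sub_distrib]
  abel

/-- The size of the right side of the difference equation. -/
noncomputable def cK (S : Sys V) (W₁ W₂ : ℝ × X3 → V) (p : ℝ × X3) : ℝ :=
  ∑ j, ‖S.l j p‖ * ‖dx j W₂ p‖ + ‖S.b p‖ + ‖S.q p‖ * ‖W₁ p‖ + ‖S.q p‖ * ‖W₂ p‖

theorem diff_le {S : Sys V} {W₁ W₂ : ℝ × X3 → V} {p : ℝ × X3} (d₁ : DifferentiableAt ℝ W₁ p)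
    (d₂ : DifferentiableAt ℝ W₂ p) (h₁ : S.Holds W₁ p) (h₂ : S.Holds W₂ p) :
    ‖dt (fun p => W₁ p - W₂ p) p - ∑ j, S.A j p (W₁ p) (dx j (fun p => W₁ p - W₂ p) p)‖ ≤
      cK S W₁ W₂ p * ‖W₁ p - W₂ p‖ := by
  rw [diff_eq d₁ d₂ h₁ h₂, cK, add_mul, add_mul, add_mul, Finset.sum_mul]
  refine norm_add_le_of_le (norm_add_le_of_le (norm_add_le_of_le
    (norm_sum_le_of_le _ fun j _ => ?_) ((S.b p).le_opNorm _)) ((S.q p).le_opNorm₂ _ _)) ?_
  · exact ((S.l j p).le_opNorm₂ _ _).trans (le_of_eq (by ring))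
  · exact ((S.q p).le_opNorm₂ _ _).trans (le_of_eq (by ring))

theorem cK_cont {S : Sys V} (hS : S.Sm) {W₁ W₂ : ℝ × X3 → V} {O : Set (ℝ × X3)} (hO : IsOpen O)
    (d₁ : ContDiffOn ℝ 1 W₁ O) (d₂ : ContDiffOn ℝ 1 W₂ O) : ContinuousOn (cK S W₁ W₂) O := by
  have c : ∀ j, ContinuousOn (dx j W₂) O := fun j =>
    (d₂.continuousOn_fderiv_of_isOpen hO le_rfl).clm_apply continuousOn_const
  have cl : ∀ j, Continuous fun p => ‖S.l j p‖ := fun j =>
    (continuous_norm (E := V →L[ℝ] V →L[ℝ] V)).comp (hS.l j).continuous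
  have cb : Continuous fun p => ‖S.b p‖ := continuous_norm.comp hS.b.continuous
  have cq : Continuous fun p => ‖S.q p‖ :=
    (continuous_norm (E := V →L[ℝ] V →L[ℝ] V)).comp hS.q.continuous
  unfold cK
  exact (((continuousOn_finsetSum _ fun j _ => (cl j).continuousOn.mul (c j).norm).add
    cb.continuousOn).add (cq.continuousOn.mul d₁.continuousOn.norm)).add
    (cq.continuousOn.mul d₂.continuousOn.norm)

theorem A_cd {S : Sys V} (hS : S.Sm) {W : ℝ × X3 → V} {O : Set (ℝ × X3)}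
    (d : ContDiffOn ℝ 1 W O) (j : Fin 3) : ContDiffOn ℝ 1 (fun p => S.A j p (W p)) O :=
  ((hS.a j).of_le (by simp)).contDiffOn.add (((hS.l j).of_le (by simp)).contDiffOn.clm_apply d)

end

/-- The coordinates of space. -/
def co (j : Fin 3) : X3 →L[ℝ] ℝ :=
  ![ContinuousLinearMap.fst ℝ ℝ (ℝ × ℝ),
    (ContinuousLinearMap.fst ℝ ℝ ℝ).comp (ContinuousLinearMap.snd ℝ ℝ (ℝ × ℝ)),
    (ContinuousLinearMap.snd ℝ ℝ ℝ).comp (ContinuousLinearMap.snd ℝ ℝ (ℝ × ℝ))] j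

theorem co_e (i j : Fin 3) : co i (e j) = if j = i then 1 else 0 := by
  fin_cases i <;> fin_cases j <;> simp [co, e]

theorem norm_le_co {x : X3} {L : ℝ} (h : ∀ j, |co j x| ≤ L) : ‖x‖ ≤ L :=
  norm_prod_le_iff.2 ⟨h 0, norm_prod_le_iff.2 ⟨h 1, h 2⟩⟩

theorem co_le (j : Fin 3) (x : X3) : |co j x| ≤ ‖x‖ := by
  fin_cases j
  · exact norm_fst_le x
  · exact (norm_fst_le x.2).trans (norm_snd_le x)
  · exact (norm_snd_le x.2).trans (norm_snd_le x)

/-- The faces of a shrinking cube. -/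
noncomputable def face (c : ℝ) (i : Fin 3 × Bool) : ℝ × X3 →L[ℝ] ℝ :=
  (if i.2 then 1 else -1 : ℝ) • (co i.1).comp (ContinuousLinearMap.snd ℝ ℝ X3) +
    c • ContinuousLinearMap.fst ℝ ℝ X3

theorem face_apply (c : ℝ) (i : Fin 3 × Bool) (p : ℝ × X3) :
    face c i p = (if i.2 then 1 else -1 : ℝ) * co i.1 p.2 + c * p.1 := rfl

section
variable {V : Type} [NormedAddCommGroup V] [InnerProductSpace ℝ V] [FiniteDimensional ℝ V]

/-- Uniqueness in the cube of centre x0 and radius L which shrinks with speed c. -/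
theorem uniq_cube {S : Sys V} (hS : S.OK) {W₁ W₂ : ℝ × X3 → V} {O : Set (ℝ × X3)} (hO : IsOpen O)
    {t0 t1 c L : ℝ} {x0 : X3} (hc : 0 ≤ c) (hD : Icc t0 t1 ×ˢ Metric.closedBall x0 L ⊆ O)
    (d₁ : ContDiffOn ℝ 1 W₁ O) (d₂ : ContDiffOn ℝ 1 W₂ O)
    (H : ∀ p : ℝ × X3, p.1 ∈ Icc t0 t1 → ‖p.2 - x0‖ ≤ L →
      S.Holds W₁ p ∧ S.Holds W₂ p ∧ ∀ j, ‖S.A j p (W₁ p)‖ ≤ c)
    (h0 : ∀ x, ‖x - x0‖ ≤ L → W₁ (t0, x) = W₂ (t0, x)) {p : ℝ × X3} (hp : p.1 ∈ Icc t0 t1)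
    (hp' : ‖p.2 - x0‖ + c * (p.1 - t0) < L) : W₁ p = W₂ p := by
  have hK : IsCompact (Icc t0 t1 ×ˢ Metric.closedBall x0 L) :=
    isCompact_Icc.prod (isCompact_closedBall _ _)
  obtain ⟨K, hK'⟩ := hK.exists_bound_of_continuousOn ((cK_cont hS.sm hO d₁ d₂).mono hD)
  let φ : Fin 3 × Bool → ℝ × X3 → ℝ := fun i p => face c i p - (face c i (t0, x0) + L)
  have hφ : ∀ i p, φ i p = (if i.2 then 1 else -1 : ℝ) * co i.1 (p.2 - x0) + c * (p.1 - t0) - L :=
    fun i p => by simp only [φ, face_apply, map_sub]; ring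
  have hf : ∀ i p, fderiv ℝ (φ i) p = face c i := fun i p =>
    ((face c i).hasFDerivAt.sub_const _).fderiv
  have hin : ∀ p : ℝ × X3, t0 ≤ p.1 → (∀ i, φ i p < 0) → ‖p.2 - x0‖ ≤ L := fun p h1 h2 => by
    refine norm_le_co fun j => abs_le.2 ⟨?_, ?_⟩
    · have := h2 (j, false)
      rw [hφ] at this
      simp only [Bool.false_eq_true, if_false] at this
      nlinarith [mul_nonneg hc (sub_nonneg.2 h1)]
    · have := h2 (j, true)
      rw [hφ] at this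
      simp only [if_true] at this
      nlinarith [mul_nonneg hc (sub_nonneg.2 h1)]
  refine sub_eq_zero.1 (P354HU.uniq V (Fin 3 × Bool) φ (fun j p => S.A j p (W₁ p))
    (fun p => W₁ p - W₂ p) O _ t0 t1 K hO hK hD
    (fun i => (face c i).contDiff.sub contDiff_const) (A_cd hS.sm d₁) (d₁.sub d₂)
    (fun p h1 h2 => ?_) (fun x h => sub_eq_zero.2 (h0 x (hin (t0, x) le_rfl h))) p hp fun i => ?_)
  · have h3 := hin p h1.1 h2
    have h4 : p ∈ Icc t0 t1 ×ˢ Metric.closedBall x0 L := ⟨h1, mem_closedBall_iff_norm.2 h3⟩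
    obtain ⟨k1, k2, k3⟩ := H p h1 h3
    have n := hO.mem_nhds (hD h4)
    refine ⟨h4, fun j v w => ?_, ?_, fun i z => ?_⟩
    · simp only [Sys.A, add_apply, inner_add_left, inner_add_right]
      rw [hS.sa j p v w, hS.sl j p _ v w]
    · refine (diff_le ((d₁.contDiffAt n).differentiableAt one_ne_zero)
        ((d₂.contDiffAt n).differentiableAt one_ne_zero) k1 k2).trans
        (mul_le_mul_of_nonneg_right ((le_abs_self _).trans (hK' p h4)) (norm_nonneg _))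
    · simp only [dx, dt, hf, face_apply, co_e, map_zero, mul_zero, add_zero, zero_add, mul_one,
        mul_ite, ite_mul, zero_mul, Finset.sum_ite_eq', Finset.mem_univ, if_true]
      have k4 : |inner ℝ z (S.A i.1 p (W₁ p) z)| ≤ c * ‖z‖ ^ 2 :=
        (abs_real_inner_le_norm _ _).trans (by
          have := ((S.A i.1 p (W₁ p)).le_opNorm z).trans
            (mul_le_mul_of_nonneg_right (k3 i.1) (norm_nonneg z))
          nlinarith [norm_nonneg z])
      have k5 := abs_le.1 k4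
      split_ifs <;> linarith [k5.1, k5.2]
  · have k := abs_le.1 (co_le i.1 (p.2 - x0))
    rw [hφ]
    split_ifs <;> linarith [k.1, k.2]

/-- Uniqueness on a strip when the speed is bounded. -/
theorem uniq_strip {S : Sys V} (hS : S.OK) {W₁ W₂ : ℝ × X3 → V} {t0 t1 c : ℝ}
    (d₁ : ContDiff ℝ 1 W₁) (d₂ : ContDiff ℝ 1 W₂)
    (H : ∀ p : ℝ × X3, p.1 ∈ Icc t0 t1 → S.Holds W₁ p ∧ S.Holds W₂ p ∧ ∀ j, ‖S.A j p (W₁ p)‖ ≤ c)
    (h0 : sl W₁ t0 = sl W₂ t0) {p : ℝ × X3} (hp : p.1 ∈ Icc t0 t1) : W₁ p = W₂ p :=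
  uniq_cube hS isOpen_univ (x0 := 0) (L := ‖p.2 - 0‖ + c * (p.1 - t0) + 1)
    ((norm_nonneg _).trans ((H p hp).2.2 0)) (subset_univ _) d₁.contDiffOn d₂.contDiffOn
    (fun q h _ => H q h) (fun x _ => congrFun h0 x) hp (lt_add_one _)

/-- Uniqueness on a strip for a solution with compact support. -/
theorem uniq_cs {S : Sys V} (hS : S.OK) {W₁ W₂ : ℝ × X3 → V} {t0 t1 : ℝ} {C : ℕ → ℝ}
    (hC : S.Bd (Icc t0 t1) C) (d₁ : ContDiff ℝ ∞ W₁) (d₂ : ContDiff ℝ ∞ W₂)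
    (k : HasCompactSupport W₁) (H₁ : ∀ p : ℝ × X3, p.1 ∈ Icc t0 t1 → S.Holds W₁ p)
    (H₂ : ∀ p : ℝ × X3, p.1 ∈ Icc t0 t1 → S.Holds W₂ p)
    (h0 : sl W₁ t0 = sl W₂ t0) {p : ℝ × X3} (hp : p.1 ∈ Icc t0 t1) : W₁ p = W₂ p := by
  obtain ⟨B, hB⟩ := d₁.continuous.bounded_above_of_compact_support k
  have h1 : 0 ≤ C 0 := (norm_nonneg _).trans (((hC 0 p.1 hp).1 0).1 [] le_rfl p.2)
  exact uniq_strip hS (c := C 0 + C 0 * B) (d₁.of_le (by simp)) (d₂.of_le (by simp))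
    (fun q h => ⟨H₁ q h, H₂ q h, fun j => (norm_A_le hC h j _).trans
      (add_le_add le_rfl (mul_le_mul_of_nonneg_left (hB q) h1))⟩) h0 hp

end

section
variable {V : Type} [NormedAddCommGroup V] [NormedSpace ℝ V]

/-- W before the time m, W' after. -/
noncomputable def glue (m : ℝ) (W W' : ℝ × X3 → V) (p : ℝ × X3) : V := if p.1 ≤ m then W p else W' p

omit [NormedAddCommGroup V] [NormedSpace ℝ V] in
theorem glue_left {m a b : ℝ} {W W' : ℝ × X3 → V} (h : ∀ p : ℝ × X3, p.1 ∈ Icc a b → W p = W' p)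
    (ha : a < m) {p : ℝ × X3} (hp : p.1 < b) : glue m W W' =ᶠ[𝓝 p] W := by
  filter_upwards [(isOpen_lt continuous_fst continuous_const).mem_nhds hp] with q hq
  unfold glue
  split_ifs with c
  · rfl
  · exact (h q ⟨by linarith, hq.le⟩).symm

omit [NormedAddCommGroup V] [NormedSpace ℝ V] in
theorem glue_right {m a b : ℝ} {W W' : ℝ × X3 → V} (h : ∀ p : ℝ × X3, p.1 ∈ Icc a b → W p = W' p)
    (hb : m < b) {p : ℝ × X3} (hp : a < p.1) : glue m W W' =ᶠ[𝓝 p] W' := by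
  filter_upwards [(isOpen_lt continuous_const continuous_fst).mem_nhds hp] with q hq
  unfold glue
  split_ifs with c
  · exact h q ⟨hq.le, by linarith⟩
  · rfl

theorem glue_cd {m a b : ℝ} {W W' : ℝ × X3 → V} (h : ∀ p : ℝ × X3, p.1 ∈ Icc a b → W p = W' p)
    (ha : a < m) (hb : m < b) (d : ContDiff ℝ ∞ W) (d' : ContDiff ℝ ∞ W') :
    ContDiff ℝ ∞ (glue m W W') := by
  refine contDiff_iff_contDiffAt.2 fun p => ?_
  rcases lt_or_ge p.1 b with c | c
  · exact d.contDiffAt.congr_of_eventuallyEq (glue_left h ha c)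
  · exact d'.contDiffAt.congr_of_eventuallyEq (glue_right h hb (by linarith))

omit [NormedSpace ℝ V] in
theorem glue_cs (m : ℝ) {W W' : ℝ × X3 → V} (k : HasCompactSupport W) (k' : HasCompactSupport W') :
    HasCompactSupport (glue m W W') :=
  HasCompactSupport.intro (IsCompact.union k k') fun p hp => by
    rw [mem_union, not_or] at hp
    unfold glue
    split_ifs
    · exact image_eq_zero_of_notMem_tsupport hp.1
    · exact image_eq_zero_of_notMem_tsupport hp.2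

/-- A solution up to the time s which agrees with W0 for negative times. -/
def Upto (S : Sys V) (W0 : ℝ × X3 → V) (δ s : ℝ) : Prop :=
  ∃ W, ContDiff ℝ ∞ W ∧ HasCompactSupport W ∧ (∀ p : ℝ × X3, p.1 ≤ 0 → W p = W0 p) ∧
    ∀ p : ℝ × X3, p.1 ∈ Icc (-δ) s → S.Holds W p

theorem Upto.mono {S : Sys V} {W0 : ℝ × X3 → V} {δ s s' : ℝ} (h : Upto S W0 δ s) (hs : s' ≤ s) :
    Upto S W0 δ s' :=
  let ⟨W, a, b, c, d⟩ := h
  ⟨W, a, b, c, fun p hp => d p ⟨hp.1, hp.2.trans hs⟩⟩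

end

section
variable {V : Type} [NormedAddCommGroup V] [InnerProductSpace ℝ V] [FiniteDimensional ℝ V]

theorem upto_all (hL : LOCAL) {S : Sys V} (hS : S.OK) (hC : ∀ T, ∃ C', S.Bd (Icc (-1) T) C')
    {W0 : ℝ × X3 → V} {δ : ℝ} (hδ : 0 < δ) (hA : Apr S (sl W0 0)) (h0 : Upto S W0 δ δ) (T : ℝ) :
    Upto S W0 δ T := by
  obtain ⟨C', hC'⟩ := hC (T + 1)
  obtain ⟨R, hR⟩ := hA T
  obtain ⟨δ', p1, p2, hl⟩ := hL C' R
  obtain ⟨h, q0, q1, q2⟩ : ∃ h : ℝ, 0 < h ∧ 2 * h ≤ δ' ∧ h ≤ δ :=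
    ⟨min (δ' / 2) δ, lt_min (by linarith) hδ, by linarith [min_le_left (δ' / 2) δ], min_le_right _ _⟩
  have step : ∀ s, δ ≤ s → s ≤ T → Upto S W0 δ s → Upto S W0 δ (s + h) := by
    rintro s s1 s2 ⟨W, a, b, c, d⟩
    have e0 : sl W 0 = sl W0 0 := funext fun x => c (0, x) le_rfl
    obtain ⟨W', a', b', c', d'⟩ := hl V S (s - h) (sl W (s - h)) hS
      (bd_mono hC' (Icc_subset_Icc (by linarith) (by linarith))) (good_sl a b _)
      (hR (s - h) ⟨by linarith, by linarith⟩ W a b e0 fun p hp =>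
        d p ⟨by linarith [hp.1], by linarith [hp.2]⟩)
    have u : ∀ p : ℝ × X3, p.1 ∈ Icc (s - h) s → W p = W' p := fun p hp =>
      uniq_cs hS (bd_mono hC' (Icc_subset_Icc (by linarith) (by linarith))) a a' b
        (fun q hq => d q ⟨by linarith [hq.1], hq.2⟩)
        (fun q hq => d' q ⟨by linarith [hq.1], by linarith [hq.2]⟩) c'.symm hp
    have m1 : s - h < s - h / 2 := by linarith
    have m2 : s - h / 2 < s := by linarith
    refine ⟨glue (s - h / 2) W W', glue_cd u m1 m2 a a', glue_cs _ b b', fun p hp => ?_,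
      fun p hp => ?_⟩
    · rw [(glue_left u m1 (by linarith)).eq_of_nhds, c p hp]
    · rcases lt_or_ge p.1 s with k | k
      · exact holds_congr S (glue_left u m1 k).symm (d p ⟨hp.1, k.le⟩)
      · exact holds_congr S (glue_right u m2 (by linarith)).symm
          (d' p ⟨by linarith, by linarith [hp.2]⟩)
  have ind : ∀ n : ℕ, Upto S W0 δ (δ + n * h) ∨ Upto S W0 δ T := by
    intro n
    induction n with
    | zero => exact Or.inl (by simpa using h0)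
    | succ n ih =>
      rcases ih with ih | ih
      · rcases le_total (δ + n * h) T with k | k
        · refine Or.inl ?_
          have := step _ (le_add_of_nonneg_right (by positivity)) k ih
          rwa [Nat.cast_succ, add_mul, one_mul, ← add_assoc]
        · exact Or.inr (ih.mono k)
      · exact Or.inr ih
  obtain ⟨n, hn⟩ := exists_nat_ge (T / h)
  rcases ind n with k | k
  · exact k.mono (by rw [div_le_iff₀ q0] at hn; linarith)
  · exact k

end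

/-- **GLOBAL from LOCAL.** -/
theorem global_of (hL : LOCAL) : GLOBAL := by
  intro C R
  obtain ⟨δ, p1, p2, hl⟩ := hL C R
  refine ⟨δ, p1, p2, fun V _ _ _ S w hS hC hC' hw hR hA => ?_⟩
  obtain ⟨W0, a0, b0, c0, d0⟩ := hl V S 0 w hS (by simpa using hC) hw hR
  have h0 : Upto S W0 δ δ := ⟨W0, a0, b0, fun _ _ => rfl, fun p hp => d0 p (by simpa using hp)⟩
  choose F a b c d using fun n : ℕ => upto_all hL hS hC' p1 (c0.symm ▸ hA) h0 n
  have u : ∀ (n m : ℕ) (p : ℝ × X3), p.1 ≤ n → p.1 ≤ m → F n p = F m p := by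
    intro n m p h1 h2
    rcases le_total p.1 0 with k | k
    · rw [c n p k, c m p k]
    · obtain ⟨C', hb⟩ := hC' p.1
      exact uniq_cs hS (t0 := 0) (t1 := p.1) (bd_mono hb (Icc_subset_Icc (by norm_num) le_rfl))
        (a n) (a m) (b n) (fun q hq => d n q ⟨by linarith [hq.1], hq.2.trans h1⟩)
        (fun q hq => d m q ⟨by linarith [hq.1], hq.2.trans h2⟩)
        (funext fun x => (c n (0, x) le_rfl).trans (c m (0, x) le_rfl).symm) ⟨k, le_rfl⟩
  have v : ∀ (n : ℕ) (p : ℝ × X3), p.1 < n → F n =ᶠ[𝓝 p] fun p => F ⌈p.1⌉₊ p := fun n p hp => by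
    filter_upwards [(isOpen_lt continuous_fst continuous_const).mem_nhds hp] with q hq
    exact u _ _ q hq.le (Nat.le_ceil _)
  refine ⟨fun p => F ⌈p.1⌉₊ p, contDiff_iff_contDiffAt.2 fun p => ?_, ?_, fun p hp => ?_,
    fun T => ?_⟩
  · obtain ⟨n, hn⟩ := exists_nat_gt p.1
    exact (a n).contDiffAt.congr_of_eventuallyEq (v n p hn).symm
  · rw [← c0]
    exact funext fun x => c _ (0, x) le_rfl
  · obtain ⟨n, hn⟩ := exists_nat_gt p.1
    exact holds_congr S (v n p hn) (d n p ⟨hp, hn.le⟩)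
  · obtain ⟨n, hn⟩ := exists_nat_gt T
    exact ⟨F n, a n, b n, fun p hp => (v n p (hp.trans hn)).eq_of_nhds⟩

end Vale.Agent.P354HG
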